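import Vale.Agent.P355.Plain

/-!
# Mutually unbiased bases of `ℂ^6` with phases in a cyclotomic field

If `N` divides `2 ^ s + 1` or `3 ^ s + 1` for some `s ≥ 1` (for example `N = 3 ^ b`, `5 ^ b`, `11 ^ b`,
`13 ^ b`, `4`, `7`, `28`) and `ζ` is an `N`-th root of unity, then `6` is not of the form
`x * conj x` with `x ∈ ℚ(ζ)`. So no three mutually unbiased bases of `ℂ^6` have their phases
in `ℚ(ζ)`.
-/

namespace Vale.Agent.Results.P355.CyclotomicPhases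

open Vale.Agent.P355

theorem result (N s : ℕ) (hs : 0 < s) (hN : N ∣ 2 ^ s + 1 ∨ N ∣ 3 ^ s + 1) (ζ : ℂ)
    (hζ : ζ ^ N = 1) :
    (∀ e b c : Fin 6 → Fin 6 → ℂ, MU e b → MU e c → MU b c →
      ∀ i₀ j k, ∃ i, tri e b c i j k / tri e b c i₀ j k ∉ Q ζ) ∧
    (∀ (m : ℕ) (B : Fin (m + 1) → Fin 6 → Fin 6 → ℂ), (∀ a a', a ≠ a' → MU (B a) (B a')) →
      (∀ a, a ≠ 0 → Phases ζ (B 0) (B a)) → m + 1 ≤ 2) ∧
    (∀ u v : Fin 6 → ℂ, (∀ i, u i ∈ Q ζ ∧ v i ∈ Q ζ) → ‖dot u v‖ ^ 2 ≠ 6) := by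
  refine ⟨?_, ?_, ?_⟩
  · intro e b c h1 h2 h3 i₀ j k
    exact triple' hs hN hζ h1 h2 h3 i₀ j k
  · intro m B hB hph
    exact family' hs hN hζ m B hB hph
  · intro u v huv
    refine ne_six hs hN hζ ?_
    exact Subalgebra.sum_mem _ fun i _ =>
      Subalgebra.mul_mem _ (star_mem' hN hζ (huv i).1) (huv i).2

end Vale.Agent.Results.P355.CyclotomicPhases
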