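import Vale.Agent.P355.Four
import Vale.Agent.P355.ThreePlain

/-! P355: no four mutually unbiased bases of `ℂ^6` with phases roots of unity of order dividing
`4 * 3 ^ b`. -/

namespace Vale.Agent.Results.P355.FourBases

open Vale.Agent.P355

theorem result :
    IsGreatest {m | HasBases3 m} 3 ∧
    (∀ b : ℕ, IsGreatest {m | HasBases (4 * 3 ^ (b + 1)) m} 3) ∧
    ∀ (e c : Fin 6 → Fin 6 → ℂ) (v x : Fin 6 → ℂ), MU e c →
      (∀ i, ‖dot (e i) v‖ ^ 2 = 1 / 6) → (∀ i, ‖dot (e i) x‖ ^ 2 = 1 / 6) →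
      (∀ i, ‖dot (c i) v‖ ^ 2 = 1 / 6) → (∀ i, ‖dot (c i) x‖ ^ 2 = 1 / 6) →
      ‖dot v x‖ ^ 2 = 1 / 6 →
      ¬ (VecPhases3 e v ∧ VecPhases3 e x ∧ ∀ j, VecPhases3 e (c j)) := by
  have h3 : ∀ b : ℕ, HasBases (4 * 3 ^ (b + 1)) 3 := fun b =>
    hasBases_three _ (by positivity) ⟨3 ^ b, by ring⟩
  refine ⟨⟨?_, fun m hm => at_most_three3 m hm⟩, fun b => ⟨h3 b, fun m hm =>
    at_most_three (b + 1) m hm⟩, ?_⟩
  · obtain ⟨B, r, hB, hP⟩ := h3 0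
    exact ⟨B, r, hB, fun a ha j => (hP a ha j).smooth⟩
  · intro e c v x hec hev hex hcv hcx hvx h
    exact no_config3 e c v x hec hev hex hcv hcx hvx h.2.2 h.1 h.2.1

end Vale.Agent.Results.P355.FourBases
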