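import Vale.Agent.P355.Two

/-! P355: mutually unbiased bases of `ℂ^6` whose phases are `N`-th roots of unity. -/

namespace Vale.Agent.Results.P355.RootsOfUnity

open Vale.Agent.P355

theorem three_pow_dvd (b : ℕ) : 2 * 3 ^ (b + 1) ∣ 2 * (2 ^ 3 ^ b + 1) := by
  apply Nat.mul_dvd_mul_left
  induction b with
  | zero => norm_num
  | succ b ih =>
    obtain ⟨m, hm⟩ := ih
    have h1 : 2 ^ 3 ^ (b + 1) + 1 = (2 ^ 3 ^ b + 1) * ((2 ^ 3 ^ b + 1) * (2 ^ 3 ^ b + 1) + 3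
        - 3 * (2 ^ 3 ^ b + 1)) := by
      have e : 2 ^ 3 ^ (b + 1) = (2 ^ 3 ^ b) ^ 3 := by rw [← pow_mul, pow_succ]
      rw [e]
      have hy1 : 1 ≤ 2 ^ 3 ^ b := Nat.one_le_two_pow
      obtain ⟨z, hz⟩ := Nat.exists_eq_add_of_le hy1
      rw [hz]
      have e2 : (1 + z + 1) * (1 + z + 1) + 3 - 3 * (1 + z + 1) = z * z + z + 1 := by
        have : (1 + z + 1) * (1 + z + 1) + 3 = (z * z + z + 1) + 3 * (1 + z + 1) := by ring
        rw [this, Nat.add_sub_cancel]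
      rw [e2]
      ring
    rw [h1, hm, pow_succ 3 (b + 1)]
    apply Nat.mul_dvd_mul (Dvd.intro _ rfl)
    rw [pow_succ 3 b]
    apply Nat.dvd_sub
    · apply Dvd.dvd.add _ (dvd_refl 3)
      exact ⟨3 ^ b * m * (3 ^ b * 3 * m), by ring⟩
    · exact Dvd.intro _ rfl

theorem result :
    (∀ N s : ℕ, 1 ≤ s → (N ∣ 2 * (2 ^ s + 1) ∨ N ∣ 3 ^ s + 1) →
      (∀ e b c : ONB, MUO e b → MUO e c → MUO b c → ∀ j k,
        ¬ ∀ i i', ((inner ℂ (b j) (e i) * inner ℂ (e i) (c k)) /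
          (inner ℂ (b j) (e i') * inner ℂ (e i') (c k)) : ℂ) ^ N = 1) ∧
      (∀ m, HasSystem N m → m ≤ 2) ∧
      (3 ∣ N ∨ 4 ∣ N → IsGreatest {m | HasSystem N m} 2)) ∧
    ∀ b : ℕ, IsGreatest {m | HasSystem (2 * 3 ^ (b + 1)) m} 2 := by
  have main : ∀ N s : ℕ, 1 ≤ s → (N ∣ 2 * (2 ^ s + 1) ∨ N ∣ 3 ^ s + 1) →
      (3 ∣ N ∨ 4 ∣ N → IsGreatest {m | HasSystem N m} 2) := by
    intro N s hs hN h34
    have hN0 : N ≠ 0 := by
      rintro rfl
      rcases hN with h | h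
      · rw [zero_dvd_iff] at h
        exact absurd h (by positivity)
      · rw [zero_dvd_iff] at h
        exact absurd h (by positivity)
    refine ⟨?_, fun m hm => not_three N s hs hN m hm⟩
    rcases h34 with h | h
    · exact two_of_three N hN0 h
    · exact two_of_four N hN0 h
  refine ⟨fun N s hs hN => ⟨fun e b c h1 h2 h3 j k => triple N s hs hN h1 h2 h3 j k,
    fun m hm => not_three N s hs hN m hm, main N s hs hN⟩, fun b => ?_⟩
  exact main _ (3 ^ b) (Nat.one_le_pow _ _ (by norm_num)) (Or.inl (three_pow_dvd b))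
    (Or.inl ⟨2 * 3 ^ b, by ring⟩)

end Vale.Agent.Results.P355.RootsOfUnity
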