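import Vale.Agent.P355.CompleteDegree

/-!
# P355: the arithmetic of seven mutually unbiased bases of `ℂ^6`

Let `B` be a family of seven pairwise mutually unbiased orthonormal bases of `ℂ^6` (the case
`N(6) = 7`) and let `K` be a subfield of `ℂ` which contains the triple products
`⟨x,y⟩⟨y,z⟩⟨z,x⟩` of vectors of three different bases.  Then `i ∈ K`, and `6` is a sum of two
squares of real elements of `K`.  If `K` is a number field, its degree is divisible by `4`.
In particular `K` is not a cyclotomic field `ℚ(ζ_N)` with `4 ∤ N`.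
For three or more bases: `6 = z * conj z` in `K`, and if `K` is a number field with `i ∈ K` then its
degree is divisible by `4`.
-/

open IntermediateField

theorem Vale.Agent.Results.P355.SevenBases.result :
    -- seven mutually unbiased bases of `ℂ^6`
    (∀ B : Fin 7 → OrthonormalBasis (Fin 6) ℂ (P355.Arith.Hn 6), P355.Arith.PairwiseUnbiased B →
      (∀ K : Subfield ℂ, P355.Arith.TriplesIn K B →
        Complex.I ∈ K ∧ ∃ a b : ℝ, (a : ℂ) ∈ K ∧ (b : ℂ) ∈ K ∧ a ^ 2 + b ^ 2 = 6) ∧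
      (∀ K : IntermediateField ℚ ℂ, FiniteDimensional ℚ K →
        P355.Arith.TriplesIn K.toSubfield B → 4 ∣ Module.finrank ℚ K) ∧
      (∀ (N : ℕ) (ζ : ℂ), ¬ 4 ∣ N → ζ ^ N = 1 → ¬ P355.Arith.TriplesIn ℚ⟮ζ⟯.toSubfield B)) ∧
    -- at least three mutually unbiased bases of `ℂ^6`
    (∀ (m : ℕ), 3 ≤ m → ∀ B : Fin m → OrthonormalBasis (Fin 6) ℂ (P355.Arith.Hn 6),
      P355.Arith.PairwiseUnbiased B →
      (∀ K : Subfield ℂ, P355.Arith.TriplesIn K B → ∃ z ∈ K, star z ∈ K ∧ z * star z = 6) ∧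
      (∀ K : IntermediateField ℚ ℂ, FiniteDimensional ℚ K → Complex.I ∈ K →
        P355.Arith.TriplesIn K.toSubfield B → 4 ∣ Module.finrank ℚ K)) ∧
    -- `n + 1` mutually unbiased bases of `ℂ^n`
    (∀ (n : ℕ), 2 ≤ n → ∀ B : Fin (n + 1) → OrthonormalBasis (Fin n) ℂ (P355.Arith.Hn n),
      P355.Arith.PairwiseUnbiased B → ∀ K : Subfield ℂ, P355.Arith.TriplesIn K B →
      (∃ x ∈ K, x ^ 2 = (-1) ^ (n * (n - 1) / 2) * (n : ℂ) ^ n) ∧
      ∃ z ∈ K, star z ∈ K ∧ z * star z = (n : ℂ)) ∧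
    -- the hypothesis holds if all the vectors are proportional to vectors with coordinates in a
    -- field `K` which is stable under complex conjugation
    (∀ (n m : ℕ) (B : Fin m → OrthonormalBasis (Fin n) ℂ (P355.Arith.Hn n)) (K : Subfield ℂ),
      (∀ x ∈ K, star x ∈ K) → (∀ b j, ∃ c : ℂ, c ≠ 0 ∧ ∀ k, c * (B b j) k ∈ K) →
      P355.Arith.TriplesIn K B) := by
  refine ⟨fun B hB => ⟨fun K hK => P355.Arith.CompleteMain.six hB hK, fun K hfin hK => ?_,
    fun N ζ hN hζ hK => ?_⟩, fun m hm B hB => ⟨fun K hK => ?_, fun K hfin hI hK => ?_⟩,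
    fun n hn B hB K hK => P355.Arith.CompleteMain.complete hn hB hK,
    fun n m B K hc h => P355.Arith.CompleteMain.triples_of_defined
      (P355.Arith.CompleteMain.defined_of_scaled hc h)⟩
  · have := hfin
    exact P355.Arith.CompleteDegree.degree hB hK
  · exact P355.Arith.CompleteDegree.I_notMem hN hζ (P355.Arith.CompleteMain.six hB hK).1
  · have h01 : (⟨0, by omega⟩ : Fin m) ≠ ⟨1, by omega⟩ := by simp
    have h12 : (⟨1, by omega⟩ : Fin m) ≠ ⟨2, by omega⟩ := by simp
    have h20 : (⟨2, by omega⟩ : Fin m) ≠ ⟨0, by omega⟩ := by simp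
    obtain ⟨z, hz, hz', hzz⟩ :=
      P355.Arith.CompleteMain.exists_norm hB (by norm_num) h01 h12 h20 hK
    exact ⟨z, hz, hz', by rw [hzz]; norm_num⟩
  · have := hfin
    exact P355.Arith.CompleteDegree.degree' hm hB hI hK
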